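import Crest.Agent.X277.BD.Map

/-!
# Row 262, FAM (helper17), part 0: composition of places

* `Cmp p q t` : the place `t` is the composite of `p` and `q`; `cmp p q` : the composite;
* `Cmp.res`, `Cmp.rs` : restriction of b-divisors in stages;
* `lin_mp`, `lin_pb`, `lin_up` : pull-backs are restrictions along trivial places;
* `gd p K K'` : the same place over larger ground fields.
-/

set_option autoImplicit false

noncomputable section

namespace Crest.Agent.X262.Fam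

open Crest.Agent.X277 Crest.Agent.X277.BD

variable {k F k' E k'' L : Type*} [Field k] [Field F] [Algebra k F] [Field k'] [Field E]
  [Algebra k' E] [Field k''] [Field L] [Algebra k'' L]

theorem lin_rs_congr (p : Pl k F k' E) {a b : BD k F} (h : Lin a b) : Lin (p.rs a) (p.rs b) := by
  obtain ⟨f, -, rfl⟩ := h
  refine (Pl.lin_rs_add _ _).trans ?_
  simpa using (Lin.rfl (a := p.rs b)).add (Pl.lin_rs_pr (p := p) f)

theorem lin_rs_zero (p : Pl k F k' E) : Lin (p.rs 0) 0 := by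
  simpa using Pl.lin_rs_res (p := p) (a := 0) rfl

theorem lin_rs_neg (p : Pl k F k' E) (a : BD k F) : Lin (p.rs (-a)) (-p.rs a) := by
  have h := (Pl.lin_rs_add (p := p) (-a) a).symm.trans (by simpa using lin_rs_zero p)
  simpa using h.add (Lin.rfl (a := -p.rs a))

theorem lin_rs_sub (p : Pl k F k' E) (a b : BD k F) : Lin (p.rs (a - b)) (p.rs a - p.rs b) := by
  rw [sub_eq_add_neg, sub_eq_add_neg]
  exact (Pl.lin_rs_add _ _).trans (Lin.rfl.add (lin_rs_neg p b))

theorem lin_rs_nsmul (p : Pl k F k' E) (m : ℕ) (a : BD k F) : Lin (p.rs (m • a)) (m • p.rs a) := by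
  induction m with
  | zero => simpa using lin_rs_zero p
  | succ m ih =>
    rw [succ_nsmul, succ_nsmul]
    exact (Pl.lin_rs_add _ _).trans (ih.add Lin.rfl)

theorem lin_rs_zsmul (p : Pl k F k' E) (m : ℤ) (a : BD k F) : Lin (p.rs (m • a)) (m • p.rs a) := by
  obtain ⟨m, rfl | rfl⟩ := m.eq_nat_or_neg
  · simpa using lin_rs_nsmul p m a
  · simpa using (lin_rs_neg p (m • a)).trans (lin_rs_nsmul p m a).neg

/-- the place `t` is the composite of `p` and `q` -/
structure Cmp (p : Pl k F k' E) (q : Pl k' E k'' L) (t : Pl k F k'' L) : Prop where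
  mem : ∀ x, x ∈ t.V.1 ↔ x ∈ p.V.1 ∧ p.r x ∈ q.V.1
  r : ∀ x ∈ t.V.1, t.r x = q.r (p.r x)

/-- the composite place -/
def cmp (p : Pl k F k' E) (q : Pl k' E k'' L) : Pl k F k'' L where
  V := p.cm q.V
  φ :=
    { toFun := fun x => q.r (p.r x)
      map_one' := by simp
      map_mul' := fun x y => by
        rw [MulMemClass.coe_mul, Pl.r_mul x.2.1 y.2.1, Pl.r_mul x.2.2 y.2.2]
      map_zero' := by simp
      map_add' := fun x y => by
        rw [AddMemClass.coe_add, Pl.r_add x.2.1 y.2.1, Pl.r_add x.2.2 y.2.2] }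
  ker x := by
    change q.r (p.r x) = 0 ↔ _
    rw [Pl.r_eq_zero x.2.2, ← not_le, ← not_le, not_iff_not]
    by_cases h0 : p.V.v x = 1
    · have h1 := (Pl.v_le_iff (p := p) (W := q.V) (x := 1) (one_mem _) h0)
      simpa using h1.symm
    · have h1 : p.r x = 0 := not_not.1 (Pl.r_ne_zero_iff.not.2 h0)
      rw [h1, map_zero]
      refine ⟨fun h => absurd h (by simp), fun h => (h0 ?_).elim⟩
      have h2 := RZ.le_of_le (x := 1) (y := (x : F)) (Pl.cm_le (p := p) q.V) (by simpa using h)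
      exact le_antisymm (RZ.le_one_iff.2 x.2.1) (by simpa using h2)
  ov c := by
    obtain ⟨c', h1⟩ := Pl.r_alg (p := p) c
    obtain ⟨c'', h2⟩ := Pl.r_alg (p := q) c'
    exact ⟨c'', by rw [← h2, ← h1]; rfl⟩

theorem cmp_cmp (p : Pl k F k' E) (q : Pl k' E k'' L) : Cmp p q (cmp p q) :=
  ⟨fun _ => Iff.rfl, fun _ hx => (cmp p q).r_eq hx⟩

namespace Cmp

variable {p : Pl k F k' E} {q : Pl k' E k'' L} {t : Pl k F k'' L} (h : Cmp p q t)
include h

theorem V_eq : t.V = p.cm q.V := Subtype.ext (ValuationSubring.ext _ _ h.mem)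

theorem cm_eq (W : RZ k'' L) : t.cm W = p.cm (q.cm W) := by
  refine Subtype.ext (ValuationSubring.ext _ _ fun x => ?_)
  rw [Pl.mem_cm, Pl.mem_cm, Pl.mem_cm]
  exact ⟨fun h1 => ⟨((h.mem x).1 h1.1).1, ((h.mem x).1 h1.1).2, h.r x h1.1 ▸ h1.2⟩,
    fun h1 => ⟨(h.mem x).2 ⟨h1.1, h1.2.1⟩, (h.r x ((h.mem x).2 ⟨h1.1, h1.2.1⟩)).symm ▸ h1.2.2⟩⟩

theorem le : t.V.1 ≤ p.V.1 := fun x hx => ((h.mem x).1 hx).1

theorem val_p {a : BD k F} (ha : a.val t.V = 1) : a.val p.V = 1 := by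
  have := val_of_le (a := a) (g := 1) h.le (by rw [ha, map_one])
  rw [← this, map_one]

theorem val_q {a : BD k F} (ha : a.val t.V = 1) : (p.res a).val q.V = 1 := by
  rw [Pl.val_res (h.val_p ha) (g := 1) (by rw [← h.V_eq, ha, map_one]), Pl.r_one, map_one]

/-- restriction in stages -/
theorem res {a : BD k F} (ha : a.val t.V = 1) : q.res (p.res a) = t.res a := by
  refine ext' fun W => ?_
  have h1 := v_gen a (t.cm W)
  have h2 : (p.cm (q.cm W)).v (a.gen (t.cm W)) = a.val (p.cm (q.cm W)) := h.cm_eq W ▸ h1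
  rw [Pl.val_res ha h1, Pl.val_res (h.val_q ha) (Pl.val_res (h.val_p ha) h2).symm,
    h.r _ (RZ.le_one_iff.1 (Pl.unit_of_gen ha h1).le)]

theorem rs (a : BD k F) : Lin (q.rs (p.rs a)) (t.rs a) := by
  have h1 : (a - pr k (a.gen t.V)).val t.V = 1 := Pl.val_sub_gen (v_gen _ _)
  have h2 : Lin (p.rs a) (p.res (a - pr k (a.gen t.V))) :=
    Pl.lin_rs (val_of_le h.le (v_gen _ _))
  refine (lin_rs_congr q h2).trans ((Pl.lin_rs_res (h.val_q h1)).trans ?_)
  rw [h.res h1]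
  exact Lin.rfl

end Cmp

section hom

variable (j : F →+* E) (h : ∀ c : k, ∃ c' : k', j (algebraMap k F c) = algebraMap k' E c')

theorem lin_mp (a : BD k F) : Lin ((Pl.ofHom j h).rs a) (mp j h a) := Pl.lin_rs_res (val_top a)

theorem mem_ofHom (x : F) : x ∈ (Pl.ofHom j h).V.1 := ValuationSubring.mem_top x

variable {j h}

/-- first pull back, then restrict -/
theorem cmp_hom_left {q : Pl k' E k'' L} {t : Pl k F k'' L} (h1 : ∀ x, x ∈ t.V.1 ↔ j x ∈ q.V.1)
    (h2 : ∀ x ∈ t.V.1, t.r x = q.r (j x)) : Cmp (Pl.ofHom j h) q t :=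
  ⟨fun x => by rw [Pl.r_ofHom, h1]; exact ⟨fun h => ⟨mem_ofHom _ _ x, h⟩, fun h => h.2⟩,
    fun x hx => by rw [Pl.r_ofHom, h2 x hx]⟩

theorem rs_mp {q : Pl k' E k'' L} {t : Pl k F k'' L} (h1 : ∀ x, x ∈ t.V.1 ↔ j x ∈ q.V.1)
    (h2 : ∀ x ∈ t.V.1, t.r x = q.r (j x)) (a : BD k F) : Lin (q.rs (mp j h a)) (t.rs a) :=
  (lin_rs_congr q (lin_mp j h a).symm).trans ((cmp_hom_left h1 h2).rs a)

end hom

section hom2

variable {j : E →+* L} {h : ∀ c : k', ∃ c' : k'', j (algebraMap k' E c) = algebraMap k'' L c'}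

/-- first restrict, then pull back -/
theorem cmp_hom_right {p : Pl k F k' E} {t : Pl k F k'' L} (h1 : ∀ x, x ∈ t.V.1 ↔ x ∈ p.V.1)
    (h2 : ∀ x ∈ t.V.1, t.r x = j (p.r x)) : Cmp p (Pl.ofHom j h) t :=
  ⟨fun x => by rw [h1]; exact ⟨fun h => ⟨h, mem_ofHom _ _ _⟩, fun h => h.1⟩,
    fun x hx => by rw [Pl.r_ofHom, h2 x hx]⟩

theorem mp_rs {p : Pl k F k' E} {t : Pl k F k'' L} (h1 : ∀ x, x ∈ t.V.1 ↔ x ∈ p.V.1)
    (h2 : ∀ x ∈ t.V.1, t.r x = j (p.r x)) (a : BD k F) : Lin (mp j h (p.rs a)) (t.rs a) :=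
  (lin_mp j h _).symm.trans ((cmp_hom_right h1 h2).rs a)

end hom2

/-- the same place over other ground fields -/
def gd (p : Pl k F k' E) (K K' : Type*) [Field K] [Algebra K F] [Field K'] [Algebra K' E]
    (h : ∀ c : K, algebraMap K F c ∈ p.V.1 ∧ ∃ c' : K', p.r (algebraMap K F c) = algebraMap K' E c') :
    Pl K F K' E where
  V := ⟨p.V.1, fun c => (h c).1⟩
  φ := p.φ
  ker := p.ker
  ov c := by
    obtain ⟨c', hc⟩ := (h c).2
    exact ⟨c', by rw [← hc, p.r_eq (h c).1]⟩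

section gd

variable {p : Pl k F k' E} {K K' : Type*} [Field K] [Algebra K F] [Field K'] [Algebra K' E]
  (h : ∀ c : K, algebraMap K F c ∈ p.V.1 ∧ ∃ c' : K', p.r (algebraMap K F c) = algebraMap K' E c')

theorem gd_V : (gd p K K' h).V.1 = p.V.1 := rfl

theorem gd_r (x : F) : (gd p K K' h).r x = p.r x := rfl

variable [Algebra k K] [IsScalarTower k K F] [Algebra k' K'] [IsScalarTower k' K' E]

/-- restriction commutes with the passage to generic fibres -/
theorem gd_rs (a : BD k F) : Lin ((gd p K K' h).rs (up K a)) (up K' (p.rs a)) := by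
  let t : Pl k F K' E := gd p k K' fun c => ⟨p.V.2 c, by
    obtain ⟨c', hc⟩ := Pl.r_alg (p := p) c
    exact ⟨algebraMap k' K' c', by rw [hc, IsScalarTower.algebraMap_apply k' K' E]⟩⟩
  exact (rs_mp (t := t) (fun _ => Iff.rfl) (fun _ _ => rfl) a).trans
    (mp_rs (t := t) (p := p) (fun _ => Iff.rfl) (fun _ _ => rfl) a).symm

end gd

end Crest.Agent.X262.Fam
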