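import Crest.Agent.X262.Fam17.Core
import Crest.Agent.X262.Bnd.Defs
import Crest.Agent.X262.Surf.K3n
import Crest.Agent.X262.Hor83.Main
import Crest.Agent.X262.Geo.Dv
import Crest.Agent.X262.Gfm18.Mfs

/-!
# Row 262, FAM (helper17), part 4: `Bnd.FamStmt`

* `bound`   : the numbers of `N`, `M` on the fibres of the divisor are bounded by the volume;
* `dat`     : the numerical data of a K3 centre;
* `fam_of`  : `FamStmt` from `VolStmt`, `KStmt`, `G3Stmt`, `PGStmt`.
-/

set_option autoImplicit false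
set_option linter.unusedSectionVars false

open scoped KaehlerDifferential

noncomputable section

namespace Crest.Agent.X262.Fam

open Crest.Agent.X277 Crest.Agent.X277.Lef Crest.Agent.X277.BD Crest.Agent.X277.Pst
open Crest.Agent.X277.BD.Br (On oP kP)
open Crest.Agent.X277.BD.Cyc (Lnr Rf plV lnr_plV surj_plV)
open Crest.Agent.X262.Geo Crest.Agent.X262.Loc Crest.Agent.X262.Bnd Crest.Agent.X262.Sark
open Crest.Agent.X262.Mod (IsMod Car car_self)
open Crest.Agent.X262.Top (K3)
open List (replicate)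

section bound

variable {k K E : Type} [Field k] [Field K] [Algebra k K] [Field E] [Algebra k E] [CharZero k]
  [Algebra.EssFiniteType k K] [Algebra.EssFiniteType k E] {p : Pl k K k E}

theorem mono_le {N M : BD k K} (hN : Nef N) (hM : Nef M) (h : M ≤ N) (i j : ℕ) :
    bnum (replicate i N ++ replicate j M) ≤ bnum (replicate (i + j) N) := by
  rw [bnum_comm, add_comm, List.replicate_add]
  exact bnum_rep_mono hM hN (eff_sub_of_le h).psef j (all_rp hN i)

/-- the numbers on the fibres of the divisor are bounded by the volume of the fibre -/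
theorem bound (hp : Lnr p) (hs : Function.Surjective p.φ) (hV : Dvs p.V) (L : IntermediateField k K)
    {N M : BD k K} (hN : Nef N) (hM : Nef M) (h : M ≤ N) {r v : ℤ} (hr : 0 < r) (hv : 0 ≤ v)
    (ho : od p.V (N - M) = r) (hvol : bnum (replicate (dim L K) (up L N)) ≤ v * r ^ dim L K)
    (i j : ℕ) : bnum (((replicate i N ++ replicate j M).map p.rs).map (up (k0 hp L))) ≤
      v * r ^ (i + j) := by
  have h1 : ∀ i j, bnum ((replicate i N ++ replicate j M).map (up L)) ≤ v * r ^ (i + j) := by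
    intro i j
    rw [List.map_append, List.map_replicate, List.map_replicate]
    refine (mono_le (hN.up L) (hM.up L) (up_mono h) i j).trans ?_
    by_cases h2 : i + j = dim L K
    · rwa [h2]
    · rw [bnum_of_ne (by simpa using h2)]
      positivity
  have h2 := all_app (all_rp hN i) (all_rp hM j)
  by_cases h0 : (tr L p).V.1 = ⊤
  · have h3 := spec_hor hp hs hV h0 (sub_nonneg.2 h) h2
    have h4 := h1 (i + 1) j
    have h5 : 0 ≤ bnum (up L M :: (replicate i N ++ replicate j M).map (up L)) :=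
      bnum_nonneg (all_con (hM.up L) fun x hx => by
        obtain ⟨y, hy, rfl⟩ := List.mem_map.1 hx
        exact (h2 y hy).up L)
    rw [ho, List.map_cons, map_sub, bnum_sub] at h3
    rw [List.replicate_succ, List.cons_append, List.map_cons] at h4
    refine le_of_mul_le_mul_left (h3.trans ((sub_le_self _ h5).trans (h4.trans_eq ?_))) hr
    ring
  · exact ((spec_vert hp hs hV h0).2 _ h2).trans (h1 i j)

/-- classes from the base die on the fibres of the divisor -/
theorem lin_up_rs (hp : Lnr p) {L : IntermediateField k K} {A : BD k K} (hA : A.Free)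
    (h : cf A ≤ L) : Lin (up (k0 hp L) (p.rs A)) 0 := by
  obtain ⟨B, -, hB⟩ := exists_pb_of_le hA ((sf_le_cf A).trans h)
  have h1 := (((lin_rs_congr p hB).trans (rs_pb _ p B)).trans
    (pb_toRg (p := tr L p) (lnr_sub hp) B).symm).up (k0 hp L)
  rwa [up_pb _ fun _ => rfl] at h1

/-- a divisor which dominates the base sees the top power of its polarisation -/
theorem pos_of_hor (hp : Lnr p) {A : BD k K} (hA : A.Free) (h0 : (tr (cf A) p).V.1 = ⊤)
    (hd : dim k (cf A) = dim k E) : 0 < bnum (replicate (dim k E) (p.rs A)) := by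
  have h1 := dim_rg_top (p := tr (cf A) p) (lnr_sub hp) h0
  have h2 := bnum_rs_prj (p := tr (cf A) p) (lnr_sub hp) (lam := replicate (dim k (cf A)) (bs A))
    (by simp [h1]) []
  have h3 := dim_tower k (k0 hp (cf A)) E
  have : Module.Finite (k0 hp (cf A)) E := dim_eq_zero_iff.1 (by rw [h1] at h3; omega)
  rw [bnum_rg_top _ h0, List.map_nil, bnum_nil, List.append_nil, List.map_replicate] at h2
  rw [Gfm.bnum_rep_lin' ((lin_rs_congr p (lin_bs hA)).trans (rs_pb _ p _)), ← hd]
  exact h2 ▸ mul_pos (dl_pos hA) (by exact_mod_cast Module.finrank_pos)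

theorem alg_of_dim {L L' : IntermediateField k K} (h : L ≤ L') (hd : dim k L' = dim k L) {x : K}
    (hx : x ∈ L') : IsAlgebraic L x := by
  let := (IntermediateField.inclusion h).toRingHom.toAlgebra
  have := Module.finite_of_finrank_pos ((deg_pos_iff (IntermediateField.inclusion h)).2 hd)
  exact (IsAlgebraic.of_finite L (⟨x, hx⟩ : L')).ringHom_of_comp_eq (RingHom.id L)
    (L'.val : L' →+* K) Function.injective_id rfl

end bound

theorem al_closed {κ F : Type} [Field κ] [Algebra ℂ κ] [Field F] [Algebra ℂ F]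
    (e : κ ≃ₐ[ℂ] RatFunc F) (x : κ) (h : IsAlgebraic (al e).fieldRange x) :
    x ∈ (al e).fieldRange := by
  have h1 : IsAlgebraic F (e x) := by
    refine (h.ringHom_of_comp_eq ((al e).equivFieldRange.symm : _ →+* F) (e : κ →+* RatFunc F)
      (al e).equivFieldRange.symm.injective (RingHom.ext fun y => ?_))
    obtain ⟨y, rfl⟩ := (al e).equivFieldRange.surjective y
    change algebraMap F _ ((al e).equivFieldRange.symm _) = e (al e y)
    rw [AlgEquiv.symm_apply_apply]
    exact (e.apply_symm_apply _).symm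
  obtain ⟨c, hc⟩ : ∃ c, e x = RatFunc.C c := by
    by_contra h2
    exact RatFunc.transcendental_of_ne_C _ h2 h1
  exact ⟨c, e.injective ((e.apply_symm_apply _).trans hc.symm)⟩

section K3

variable {F : Type} [Field F] [Algebra ℂ F] [Algebra.EssFiniteType ℂ F] {δ : ℕ} (S : K3 F δ)

theorem dvd_dg (V : RZ ℂ F) (hV : Dvs V) : (δ : ℤ) ∣ dg V [S.L] := by
  by_cases h : Prm (oP S.P) V
  · obtain ⟨c, hc⟩ := S.gen _ (dv_mem (P := S.P) V)
    have h1 := hc _ S.L_on
    rw [bnum_sub, bnum_zsmul, S.L_sq, bnum_dv h (by simpa using S.L_on)] at h1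
    exact ⟨c, by linarith⟩
  · rw [Hor83.dg_car (Surf.K3n.dim_two S) Br.free_oP (car_of_On S.L_on) hV h]
    exact dvd_zero _

theorem dat (hK : Surf.KStmt) {a p : BD ℂ F} (ha : a.Free) (hb : Big a) (hp : p.Free)
    (hc : Car a p) {r : ℕ} (hr : 0 < r)
    (I1 : ∀ (Q : PModel ℂ F) (c : Bs 2 F) (D : BD ℂ F), D ∈ On Q → Nef D → Car a D →
      r * bnum [kP Q c, D] ≤ bnum [a + p, D])
    (I2 : NumZ p → (r * δ : ℤ) ≤ 4 * bnum [a, S.L]) : Dat S.L a p δ δ r := by
  classical
  obtain ⟨Q, hQ⟩ := Unf.exists_on (F := F) {a, p, oP S.P}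
  have h0 : (0 : ℤ) < δ := by exact_mod_cast Surf.K3n.d_pos S
  have key : ∀ D, D ∈ On Q → Nef D → Car a D → (r : ℤ) ^ 2 * bnum [D, S.L] ^ 2 ≤
      bnum [S.L, S.L] * (r ^ 2 * bnum [D, D] + bnum [a + p, D] ^ 2) := fun D h1 h2 h3 => by
    have h4 := hK F δ S Q S.b (hQ _ (by simp)) D h1 h2
    have h5 := I1 Q S.b D h1 h2 h3
    have h6 : 0 ≤ bnum [kP Q S.b, D] :=
      (Surf.K3n.k_eff S (hQ _ (by simp)) S.b).bnum_nonneg (by simpa using h2)
    rw [S.L_sq]
    calc _ ≤ (r : ℤ) ^ 2 * (δ * (bnum [D, D] + bnum [kP Q S.b, D] ^ 2)) := by gcongr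
      _ = δ * (r ^ 2 * bnum [D, D] + (r * bnum [kP Q S.b, D]) ^ 2) := by ring
      _ ≤ _ := by gcongr
  exact ⟨Surf.K3n.dim_two S, Surf.K3n.nef_L S, (Surf.K3n.nef_L S).big_iff.2
    (by rw [Surf.K3n.dim_two S]; exact S.L_sq ▸ h0), ha.nef, hb, hp.nef, h0, by exact_mod_cast hr,
    by rw [S.L_sq, sq], key a (hQ _ (by simp)) ha.nef (car_self ha),
    key p (hQ _ (by simp)) hp.nef hc, I2⟩

end K3

/-- **FAM** -/
theorem fam_of (hV : VolStmt) (hK : Surf.KStmt) (hG : Surf.G3Stmt) (hP : PGStmt) : FamStmt := by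
  obtain ⟨C, hC⟩ := hV
  obtain ⟨G, hG⟩ := hG
  refine ⟨16 * ((C + 1) ^ 4 + ((C + 1) ^ 4) ^ 2) + G ((C + 1) ^ 4) + 1, ?_⟩
  intro K _ _ _ b Y E F _ _ _ δ S e hno hE hδ ⟨D⟩
  obtain ⟨L, hL1, -, hL3, hL4⟩ := hC K b Y
  have := essFT_Rf hE
  have hK4 : dim ℂ K = 4 := (Module.finrank_eq_card_basis b).trans (Fintype.card_fin 4)
  have hE3 : dim ℂ (Rf E) = 3 := by have := dim_Rf' hE; omega
  have hα := al_closed e
  have hr : 0 < D.q * Y.r := Nat.mul_pos D.q_pos Y.r_pos
  have hN := Gfm.isMod_anti Y D.N_amp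
  obtain ⟨c, -, hc⟩ := (Gfm.car_anti' Y D.N_amp).trans hN.free (Y.A_car.nsmul D.l)
  obtain ⟨c', -, hc'⟩ := (Gfm.car_anti' Y D.N_amp).trans hN.free Y.A_car
  have hcar : Car D.a D.p := by
    refine Mod.car_of_free D.a_free D.p_free (n := c) ((Br.free_pb_iff (α := al e)
      fun g hg => hα g (IsIntegral.isAlgebraic (R := (al e).fieldRange) hg)).1 ?_)
    rw [map_sub, map_nsmul]
    refine Lin.free ?_ (Pl.free_rs (p := plV E) hc)
    refine Lin.trans ?_ (lin_rs_sub _ _ _).symm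
    rw [sub_eq_add_neg, sub_eq_add_neg (Pl.rs _ _)]
    exact ((D.a_lin.symm.nsmul c).trans (lin_rs_nsmul _ _ _).symm).add D.p_lin.symm.neg
  have ht := dim_tower ℂ L K
  have ht' := dim_tower ℂ (k0 (lnr_plV E) L) (Rf E)
  have hpos := Gfm.dim_pos Y
  have hadd := dim_cf_add Y.A
  have hone : dim L K ≤ 1 → L = cf Y.A ∧ dim ℂ (cf Y.A) = 3 := fun h => by
    have h1 : dim ℂ (cf Y.A) = 3 := by omega
    have h2 := dim_le (IntermediateField.inclusion hL1)
    exact ⟨le_antisymm (fun x hx => cf_cl (alg_of_dim hL1 (by omega) hx)) hL1, h1⟩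
  have hvol : bnum (replicate (dim L K) (up L (D.l • Y.A - D.q • Y.κ))) ≤
      ((C + 1) ^ 4 : ℕ) * ((D.q * Y.r : ℕ) : ℤ) ^ dim L K := by
    rw [Gfm.bnum_up_anti Y.A_free hL1]
    calc _ ≤ (D.q : ℤ) ^ dim L K * ((C * Y.r : ℕ) : ℤ) ^ dim L K := by gcongr
      _ = (C : ℤ) ^ dim L K * ((D.q * Y.r : ℕ) : ℤ) ^ dim L K := by push_cast; ring
      _ ≤ _ := by
        gcongr
        exact_mod_cast (Nat.pow_le_pow_left C.le_succ _).trans
          (Nat.pow_le_pow_right C.succ_pos (by omega))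
  have hk : 0 < dim (k0 (lnr_plV E) L) (Rf E) := by
    by_cases h0 : (tr L (plV E)).V.1 = ⊤
    · have h1 : dim ℂ (k0 (lnr_plV E) L) = dim ℂ L := dim_rg_top _ h0
      by_contra h2
      obtain ⟨rfl, h3⟩ := hone (by omega)
      have h4 := pos_of_hor (lnr_plV E) Y.A_free h0 (h3.trans hE3.symm)
      have h5 := bnum_pow_mono (Y.A_free.nef.rs (plV E)) ((hN.free.nef.nsmul c').rs (plV E))
        ((lin_rs_sub _ _ _).symm.psef (Pl.free_rs hc').eff.psef) (dim ℂ (Rf E))
      have h6 := bnum_pb_zero (al e) (l := replicate 3 (c' • D.a)) (by simp [Surf.K3n.dim_two S]) []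
      rw [List.map_replicate, List.append_nil] at h6
      rw [Gfm.bnum_rep_lin' ((lin_rs_nsmul _ _ _).trans (D.a_lin.nsmul c')), ← map_nsmul, hE3,
        h6] at h5
      rw [hE3] at h4
      omega
    · have := (spec_vert (lnr_plV E) (surj_plV E) hE h0).1
      omega
  have hcore := core (dat S hK D.a_free D.a_big D.p_free hcar hr D.I1 D.I2) (dvd_dg S) hE3 hα
    (M := (plV E).rs D.M) (v := ((C + 1) ^ 4 : ℕ)) 
    (by rw [← D.M_dg, fdg, dif_pos (eftTop _)]; rfl)
    (k0 (lnr_plV E) L) hk ((D.p_lin.symm.up _).trans (lin_up_rs _ (Y.A_free.nsmul _)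
      ((Gfm.cf_le_of_car Y.A_free ((car_self Y.A_free).nsmul _)).trans hL1)))
    (Int.natCast_nonneg _) fun i j => by
      refine le_trans (le_of_eq ?_) (bound (lnr_plV E) (surj_plV E) hE L hN.free.nef D.M_free.nef
        D.M_le (by exact_mod_cast hr) (Int.natCast_nonneg _) D.M_od hvol i j)
      simp only [List.map_append, List.map_replicate]
      rw [bnum_comm, ← bnum_rep_lin (D.a_lin.up _), bnum_comm]
  rcases hcore with h | ⟨β, h1, h2, h3⟩
  · have : δ ≤ 16 * ((C + 1) ^ 4 + ((C + 1) ^ 4) ^ 2) := by exact_mod_cast h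
    omega
  have h4 : deg β = 1 := by
    by_contra h4
    have := hG _ F β δ _ S (by omega) (by exact_mod_cast h3)
    omega
  have hβ : Function.Bijective β := by
    let := β.toRingHom.toAlgebra
    exact Algebra.finrank_eq_one_iff_bijective_algebraMap.1 h4
  have h5 : PG2 (k0 (lnr_plV E) L) := hP F _ (AlgEquiv.ofBijective β hβ).symm
    ⟨S.P, S.b, S.can.eff Eff.zero⟩ h1
  by_cases h0 : (tr L (plV E)).V.1 = ⊤
  · refine (hno L (hP _ _ (AlgEquiv.ofBijective _ ⟨(homOf (lnr_toRg (lnr_sub (lnr_plV E))) h0).injective,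
      surj_homOf _ h0⟩).symm h5 ?_)).elim
    exact (dim_rg_top _ h0).symm.trans h1
  · obtain ⟨rfl, h6⟩ := hone (by have := (spec_vert (lnr_plV E) (surj_plV E) hE h0).1; omega)
    refine ⟨h6, ?_⟩
    have h7 : rsd (cf Y.A) E = k0 (lnr_plV E) (cf Y.A) := by
      refine le_antisymm (IntermediateField.adjoin_le_iff.2 ?_) ?_
      · rintro _ ⟨x, hx, rfl⟩
        exact ⟨⟨x, hx⟩, sub_r _⟩
      · rintro _ ⟨x, rfl⟩
        exact IntermediateField.subset_adjoin _ _
          ⟨x, x.2, (sub_r (q := plV E) (α := (cf Y.A).val) x).symm⟩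
    exact h7 ▸ h5

end Crest.Agent.X262.Fam
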