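import Crest.Agent.X277.BD.Vol2

/-!
# Row 262, FAM (helper17), part 2: the numerical endgame on a surface

`H` is nef and big, `e ^ 2 = d H ^ 2`; `A`, `P` are nef, `r` is the scale.

* `Dat.of_sq`  : `P ≡ 0`, `A ^ 2 ≤ v r ^ 2` bounds `d`;
* `Dat.of_fam` : a positive functional `φ` with `φ P = 0`, `φ A ≤ v r`, `e ≤ φ H` bounds `d`.
-/

set_option autoImplicit false

noncomputable section

namespace Crest.Agent.X262.Fam

open Crest.Agent.X277 Crest.Agent.X277.BD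

section arith

variable {d e r v h a x y : ℤ}

theorem ar0 (hr : 0 < r) (he : 0 < e) (hh : 0 < h) (ha : 0 < a) (sq : e ^ 2 = d * h)
    (h1 : r ^ 2 * x ^ 2 ≤ h * (r ^ 2 * a + a ^ 2)) (h2 : r * e ≤ 4 * x) (hA : a ≤ v * r ^ 2) :
    d ≤ 16 * (v + v ^ 2) := by
  have h7 : r ^ 2 * a + a ^ 2 ≤ r ^ 2 * (v * r ^ 2) + (v * r ^ 2) ^ 2 := by gcongr
  refine le_of_mul_le_mul_left ?_ (mul_pos hh (pow_pos hr 4))
  calc h * r ^ 4 * d = r ^ 2 * (r * e) ^ 2 := by rw [mul_pow, sq]; ring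
    _ ≤ r ^ 2 * (4 * x) ^ 2 := by gcongr
    _ = 16 * (r ^ 2 * x ^ 2) := by ring
    _ ≤ 16 * (h * (r ^ 2 * (v * r ^ 2) + (v * r ^ 2) ^ 2)) :=
      mul_le_mul_of_nonneg_left (h1.trans (by gcongr)) (by norm_num)
    _ = _ := by ring

theorem ar1 (hr : 0 < r) (he : 0 < e) (hh : 0 < h) (ha : 0 < a) (hx : 0 < x) (hv : 0 ≤ v)
    (sq : e ^ 2 = d * h) (h1 : r ^ 2 * x ^ 2 ≤ h * (r ^ 2 * a + a ^ 2)) (h2 : r * e ≤ 4 * x)
    (h7 : a * e ≤ 2 * x * (v * r)) : d ≤ 16 * (v + v ^ 2) := by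
  have h9 : r ^ 2 * e * (a * e) ≤ r ^ 2 * x ^ 2 * (8 * v) :=
    calc _ ≤ r ^ 2 * e * (2 * x * (v * r)) := by gcongr
      _ = r ^ 2 * (2 * x * v) * (r * e) := by ring
      _ ≤ r ^ 2 * (2 * x * v) * (4 * x) := by gcongr
      _ = _ := by ring
  refine le_trans (le_of_mul_le_mul_left (c := 8 * v + 4 * v ^ 2) ?_
    (mul_pos hh (mul_pos (pow_pos hr 2) (pow_pos hx 2)))) (by nlinarith)
  calc h * (r ^ 2 * x ^ 2) * d = e ^ 2 * (r ^ 2 * x ^ 2) := by rw [sq]; ring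
    _ ≤ e ^ 2 * (h * (r ^ 2 * a + a ^ 2)) := by gcongr
    _ = h * (r ^ 2 * e * (a * e) + (a * e) ^ 2) := by ring
    _ ≤ h * (r ^ 2 * x ^ 2 * (8 * v) + (2 * x * (v * r)) ^ 2) := by gcongr
    _ = _ := by ring

theorem ar2 (hr : 0 < r) (he : 0 < e) (hh : 0 < h) (hx : 0 < x) (hy : 0 ≤ y) (hv : 0 ≤ v)
    (sq : e ^ 2 = d * h) (h1 : r ^ 2 * x ^ 2 ≤ h * y ^ 2) (h7 : y * e ≤ x * (v * r)) :
    d ≤ 16 * (v + v ^ 2) := by
  refine le_trans (le_of_mul_le_mul_left (c := v ^ 2) ?_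
    (mul_pos hh (mul_pos (pow_pos hr 2) (pow_pos hx 2)))) (by nlinarith)
  calc h * (r ^ 2 * x ^ 2) * d = e ^ 2 * (r ^ 2 * x ^ 2) := by rw [sq]; ring
    _ ≤ e ^ 2 * (h * y ^ 2) := by gcongr
    _ = h * (y * e) ^ 2 := by ring
    _ ≤ h * (x * (v * r)) ^ 2 := by gcongr
    _ = _ := by ring

theorem ar3 {s t n : ℤ} (hs : 0 < s) (ha : 0 < a) (hn : 0 ≤ n) (h1 : t * s * x = n)
    (h2 : t * h + 1 ≤ s * y) :
    2 * t * (n * h + s * x) < n * (n * 0 + s * y) + s * (n * y + s * a) := by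
  have h3 := mul_le_mul_of_nonneg_left h2 hn
  have h4 := mul_pos (mul_pos hs hs) ha
  nlinarith

end arith

variable {k F : Type} [Field k] [Field F] [Algebra k F] [CharZero k] [Algebra.EssFiniteType k F]

theorem siu (hd : dim k F = 2) {X Y : BD k F} (hX : Nef X) (hY : Nef Y) {p q : ℕ} (hp : 0 < p)
    (h : 2 * q * bnum [Y, X] < p * bnum [X, X]) : Psef (p • X - q • Y) :=
  (big_sub (d := 1) hd hX hY hp (by simpa [one_add_one_eq_two] using h)).psef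

/-- the numerical data on the surface -/
structure Dat (H A P : BD k F) (d e r : ℤ) : Prop where
  dim : dim k F = 2
  H_nef : Nef H
  H_big : Big H
  A_nef : Nef A
  A_big : Big A
  P_nef : Nef P
  e_pos : 0 < e
  r_pos : 0 < r
  sq : e ^ 2 = d * bnum [H, H]
  kA : r ^ 2 * bnum [A, H] ^ 2 ≤ bnum [H, H] * (r ^ 2 * bnum [A, A] + bnum [A + P, A] ^ 2)
  kP : r ^ 2 * bnum [P, H] ^ 2 ≤ bnum [H, H] * (r ^ 2 * bnum [P, P] + bnum [A + P, P] ^ 2)
  lo : NumZ P → r * e ≤ 4 * bnum [A, H]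

namespace Dat

variable {H A P : BD k F} {d e r v : ℤ} (h : Dat H A P d e r)
include h

theorem HH : 0 < bnum [H, H] := bnum_pos h.dim.symm (by simpa using ⟨h.H_nef, h.H_big⟩)

theorem AA : 0 < bnum [A, A] := bnum_pos h.dim.symm (by simpa using ⟨h.A_nef, h.A_big⟩)

theorem AH : 0 < bnum [A, H] :=
  bnum_pos h.dim.symm (by simpa using ⟨⟨h.A_nef, h.A_big⟩, h.H_nef, h.H_big⟩)

theorem of_sq (hP : NumZ P) (hA : bnum [A, A] ≤ v * r ^ 2) : d ≤ 16 * (v + v ^ 2) := by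
  have h1 := h.kA
  rw [bnum_add, hP, add_zero] at h1
  exact ar0 h.r_pos h.e_pos h.HH h.AA h.sq h1 (h.lo hP) hA

variable {φ : BD k F →+ ℤ} (hφ : ∀ a, Psef a → 0 ≤ φ a)
include hφ

theorem sq_le : bnum [A, A] * φ H ≤ 2 * bnum [A, H] * φ A := by
  by_contra h0
  have h1 := h.AA
  have h2 := h.AH
  have h3 := hφ A h.A_nef.psef
  have h4 := hφ H h.H_nef.psef
  obtain ⟨s, hs⟩ := Int.eq_ofNat_of_zero_le (a := φ H + 2 * bnum [A, H]) (by positivity)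
  obtain ⟨t, ht⟩ := Int.eq_ofNat_of_zero_le (a := φ A + bnum [A, A]) (by positivity)
  have h5 := hφ _ (siu h.dim h.A_nef h.H_nef (p := s) (q := t) (by omega)
    (by rw [← hs, ← ht, bnum_swap H]; nlinarith))
  rw [map_sub, map_nsmul, map_nsmul, nsmul_eq_mul, nsmul_eq_mul, ← hs, ← ht] at h5
  nlinarith

theorem mix_le (hP : φ P = 0) (h0 : bnum [P, P] = 0) (h1 : 0 < bnum [P, H]) :
    bnum [A, P] * φ H ≤ bnum [P, H] * φ A := by
  by_contra h0'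
  have h2 := h.AH
  have h3 := hφ A h.A_nef.psef
  have h4 := hφ H h.H_nef.psef
  have h5 : 0 ≤ bnum [A, P] := bnum_nonneg (by simpa using ⟨h.A_nef, h.P_nef⟩)
  obtain ⟨s, hs⟩ := Int.eq_ofNat_of_zero_le (a := φ H + bnum [P, H]) (by positivity)
  obtain ⟨t, ht⟩ := Int.eq_ofNat_of_zero_le (a := φ A + bnum [A, P]) (by positivity)
  obtain ⟨n, hn⟩ := Int.eq_ofNat_of_zero_le (a := t * s * bnum [A, H]) (by positivity)
  have h6 : (t : ℤ) * bnum [P, H] + 1 ≤ s * bnum [A, P] := by rw [← hs, ← ht]; nlinarith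
  have h7 : (0 : ℤ) < s := by omega
  have h8 := hφ _ (siu h.dim ((h.P_nef.nsmul n).add (h.A_nef.nsmul s)) h.H_nef (p := 1) (q := t)
    one_pos (by
      simp only [bnum_add, bnum_add2, bnum_nsmul, bnum_nsmul2, h0, bnum_swap H, bnum_swap P A]
      rw [Nat.cast_one, one_mul]
      exact ar3 h7 h.AA (Int.natCast_nonneg n) hn h6))
  simp only [map_sub, map_add, map_nsmul, nsmul_eq_mul, hP] at h8
  rw [← hs, ← ht] at h8
  push_cast at h8
  nlinarith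

theorem of_fam (hv : 0 ≤ v) (hP : φ P = 0) (hA : φ A ≤ v * r) (hH : e ≤ φ H) :
    d ≤ 16 * (v + v ^ 2) := by
  have hr := h.r_pos
  have he := h.e_pos
  have h4 := h.HH
  have h0 : bnum [P, P] = 0 := by
    refine le_antisymm (not_lt.1 fun h0 => ?_) (bnum_nonneg (by simpa using h.P_nef))
    obtain ⟨m, -, hm⟩ := h.P_nef.big_iff.2 (by rwa [h.dim]) H
    have := hφ _ hm.psef
    rw [map_sub, map_nsmul, hP, smul_zero] at this
    omega
  rcases (bnum_nonneg (l := [P, H]) (by simpa using ⟨h.P_nef, h.H_nef⟩)).eq_or_lt with h1 | h1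
  · have hz : NumZ P := h.P_nef.numZ (l := [H]) (by simpa using ⟨h.H_nef, h.H_big⟩) h.dim.symm
      h1.symm
    have h2 := h.kA
    have h5 := h.AA
    have h6 := h.AH
    rw [bnum_add, hz, add_zero] at h2
    exact ar1 hr he h4 h5 h6 hv h.sq h2 (h.lo hz)
      (le_trans (by gcongr) ((h.sq_le hφ).trans (by gcongr)))
  · have h2 := h.kP
    rw [bnum_add, h0, mul_zero, zero_add, add_zero] at h2
    have h5 : 0 ≤ bnum [A, P] := bnum_nonneg (by simpa using ⟨h.A_nef, h.P_nef⟩)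
    exact ar2 hr he h4 h1 h5 hv h.sq h2
      (le_trans (by gcongr) ((h.mix_le hφ hP h0 h1).trans (by gcongr)))

end Dat

end Crest.Agent.X262.Fam
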