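import Crest.Agent.X262.Fam17.Rg
import Crest.Agent.X262.Fam17.End
import Crest.Agent.X262.Gfm18.Base

/-!
# Row 262, FAM (helper17), part 3: a threefold fibred in curves over a surface and a second fibration

* `fd α y`   : the degree on the generic fibre of `E / α F`; `prj` : projection formula;
* `le_range` : a subfield whose big class has degree zero on the fibre lies in `α F`;
* `core`     : bounded numbers on the fibres of `E / K` bound the degree of the surface, or
  `K ≤ α F` has bounded index.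
-/

set_option autoImplicit false
set_option linter.unusedSectionVars false

noncomputable section

namespace Crest.Agent.X262.Fam

open Crest.Agent.X277 Crest.Agent.X277.BD Crest.Agent.X277.Pst
open Crest.Agent.X262.Geo Crest.Agent.X262.Loc
open List (replicate)

variable {k F E : Type} [Field k] [Field F] [Algebra k F] [Field E] [Algebra k E] [CharZero k]
  [Algebra.EssFiniteType k F] [Algebra.EssFiniteType k E] {α : F →ₐ[k] E}

variable (α) in
/-- the degree on the generic fibre -/
def fd (y : BD k E) : ℤ := bnum [up α.fieldRange y]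

theorem deg_rng : deg (α.equivFieldRange : F →ₐ[k] α.fieldRange) = 1 :=
  deg_of_surj α.equivFieldRange.surjective

theorem dim_rng : dim k α.fieldRange = dim k F :=
  (deg_pos_iff _).1 (by rw [deg_rng]; exact one_pos)

theorem prj (hF : dim k F = 2) (u w : BD k F) (y : BD k E) :
    bnum [pb α u, pb α w, y] = bnum [u, w] * fd α y := by
  have h1 : ∀ u, pb α u = pb α.fieldRange.val (pb (α.equivFieldRange : F →ₐ[k] _) u) := fun u => by
    rw [pb_pb]
    rfl
  have h2 := bnum_prj_val α.fieldRange [y]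
    (lam := [u, w].map (pb (α.equivFieldRange : F →ₐ[k] _))) (by rw [dim_rng, hF]; rfl)
  rw [bnum_pb, deg_rng, Nat.cast_one, one_mul, bnum_comm] at h2
  rw [h1 u, h1 w]
  exact h2

theorem fd_nonneg {y : BD k E} (hy : Psef y) : 0 ≤ fd α y :=
  (hy.up _).bnum_nonneg (by simp)

theorem le_range (hd : dim α.fieldRange E = 1)
    (hα : ∀ x, IsAlgebraic α.fieldRange x → x ∈ α.fieldRange) {K : IntermediateField k E}
    {B : BD k K} (hB : Big B) (h : fd α (pb K.val B) = 0) : K ≤ α.fieldRange := fun x hx => by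
  obtain ⟨m, -, hm⟩ := hB (mxf k ![1, ⟨x, hx⟩])
  have h1 := fd_nonneg (α := α) (hm.pb K.val).psef
  have h2 : up α.fieldRange (pb K.val (mxf k ![1, ⟨x, hx⟩])) = mxf α.fieldRange ![1, x] := by
    rw [pb_mxf, up_mxf]
    congr 1
    funext i
    fin_cases i <;> rfl
  rw [fd] at h
  rw [fd, map_sub, map_sub, map_nsmul, map_nsmul, bnum_sub, bnum_nsmul, h, h2] at h1
  obtain ⟨f, hf, h3⟩ := lin_zero_of_eff hd (free_mxf ![1, x]).eff
    (le_antisymm (by simpa using h1) (bnum_nonneg (by simpa using (free_mxf _).nef)))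
  have h4 : ∀ i, IsAlgebraic α.fieldRange (![1, x] i / f) := fun i =>
    Gfm.isAlg_of_Sec_zero ((mem_Sec_add_pr hf).1 (h3 ▸ mem_Sec_mxf _ i))
  refine hα x ?_
  simpa [hf] using (h4 1).mul (h4 0).inv

theorem exists_hom {K : IntermediateField k E} (h : K ≤ α.fieldRange) :
    ∃ β : K →ₐ[k] F, ∀ c, pb α (pb β c) = pb K.val c := by
  refine ⟨(α.equivFieldRange.symm : _ →ₐ[k] F).comp (IntermediateField.inclusion h), fun c => ?_⟩
  rw [pb_pb]
  congr 2
  ext x
  exact congrArg Subtype.val (α.equivFieldRange.apply_symm_apply (IntermediateField.inclusion h x))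

theorem dvd_cyc {H : BD k F} {e : ℤ} (he : ∀ V, Dvs V → e ∣ dg V [H]) (c : BD k F) :
    e ∣ bnum [c, H] := by
  obtain ⟨T, -, h2, -, h4⟩ := exists_cyc c [H] ∅ (by simp)
  exact h4 ▸ Finset.dvd_sum fun V hV => (he V (h2 V hV)).mul_left _

/-- **the family lemma** -/
theorem core [IsAlgClosed k] {H A P : BD k F} {d e r v : ℤ} (h : Dat H A P d e r)
    (he : ∀ V, Dvs V → e ∣ dg V [H]) (hE : dim k E = 3)
    (hα : ∀ x, IsAlgebraic α.fieldRange x → x ∈ α.fieldRange) {M : BD k E} (hr : fd α M = r)
    (K : IntermediateField k E) (hK : 0 < dim K E) (hP : Lin (up K (pb α P)) 0) (hv0 : 0 ≤ v)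
    (hv : ∀ i j : ℕ,
      bnum ((replicate i (pb α A) ++ replicate j M).map (up K)) ≤ v * r ^ (i + j)) :
    d ≤ 16 * (v + v ^ 2) ∨ ∃ β : K →ₐ[k] F, dim k K = 2 ∧ 0 < deg β ∧ (deg β : ℤ) ≤ v := by
  have hF := h.dim
  have hr0 := h.r_pos
  have hd : dim α.fieldRange E = 1 := by
    have := dim_tower k α.fieldRange E
    rw [dim_rng] at this
    omega
  have hz : ∀ l, bnum (up K (pb α P) :: l) = 0 := fun l => by rw [hP.bnum_eq, bnum_zero]
  have hn : bnum [P, H] = 0 → NumZ P :=
    h.P_nef.numZ (l := [H]) (by simpa using ⟨h.H_nef, h.H_big⟩) hF.symm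
  have ht := dim_tower k K E
  rcases (show dim k K = 0 ∨ dim k K = 1 ∨ dim k K = 2 by omega) with h0 | h0 | h0
  · have h1 : ∀ l : List (BD k E), bnum l = bnum (l.map (up K)) := fun l => by
      have := dim_eq_zero_iff.1 h0
      rw [bnum_up_fin (K := K), Algebra.finrank_eq_one_iff_bijective_algebraMap.2
        IsAlgClosed.algebraMap_bijective_of_isIntegral, Nat.cast_one, one_mul]
    refine Or.inl (h.of_sq (hn ?_) (le_of_mul_le_mul_right ?_ hr0))
    · refine (mul_eq_zero.1 ?_).resolve_right hr0.ne'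
      rw [← hr, ← prj hF, h1]
      exact hz _
    · rw [mul_assoc, ← pow_succ]
      refine le_trans (le_of_eq ?_) (hv 2 1)
      rw [← hr, ← prj hF, h1]
      rfl
  · obtain ⟨a, ha, h1⟩ := exists_uni1 h0
    have h2 : ∀ x y : BD k E, bnum [x, y, pb K.val a] = bnum [up K x, up K y] := fun x y => by
      simpa [h1] using bnum_prj_val K [x, y] (lam := [a]) h0.symm
    refine Or.inl ?_
    rcases (fd_nonneg (α := α) (ha.pb K.val).psef).eq_or_lt with h3 | h3
    · obtain ⟨β, hβ⟩ := exists_hom
        (le_range hd hα ((big_iff_deg h0).2 (by rw [h1]; exact one_pos)) h3.symm)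
      have h4 : ∀ y, bnum [y, pb β a] * r = bnum [up K (pb α y), up K M] := fun y => by
        rw [← hr, ← prj hF, hβ, ← h2]
        exact bnum_perm (.cons _ (.swap _ _ _))
      refine h.of_fam (φ := bnumL [pb β a])
        (fun y hy => hy.bnum_nonneg (by simpa using ha.pb β)) hv0
        ((mul_eq_zero.1 ((h4 P).trans (hz _))).resolve_right hr0.ne')
        (le_of_mul_le_mul_right ((h4 A).trans_le ((hv 1 1).trans_eq (by ring))) hr0) ?_
      change e ≤ bnum [H, pb β a]
      rw [bnum_swap]
      refine Int.le_of_dvd (lt_of_le_of_ne (bnum_nonneg (by simpa using ⟨ha.pb β, h.H_nef⟩))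
        fun h5 => ?_) (dvd_cyc he _)
      have h6 := ha.numZ_of_pb β ((ha.pb β).numZ (l := [H]) (by simpa using ⟨h.H_nef, h.H_big⟩)
        hF.symm h5.symm) []
      omega
    · refine h.of_sq (hn ?_) (le_trans (le_mul_of_one_le_right h.AA.le h3) ?_)
      · refine (mul_eq_zero.1 ?_).resolve_right h3.ne'
        rw [← prj hF, h2]
        exact hz _
      · rw [← prj hF, h2]
        exact hv 2 0
  · have h1 : dim K E = 1 := by omega
    have h2 : ∀ (x : BD k E) (a b : BD k K),
        bnum [x, pb K.val a, pb K.val b] = bnum [a, b] * bnum [up K x] := fun x a b =>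
      bnum_prj_val K [x] (lam := [a, b]) h0.symm
    have h3 : ∀ y : BD k F, Psef y → 0 ≤ bnum [up K (pb α y)] := fun y hy =>
      ((hy.pb α).up K).bnum_nonneg (by simp)
    rcases (h3 A h.A_nef.psef).eq_or_lt with h4 | h4
    · obtain ⟨B, hB⟩ := Mod.exists_isMod (k := k) (F := K)
      obtain ⟨Q, hQ⟩ := Mod.exists_isMod (k := k) (F := E)
      have h5 : 0 < bnum [B, B] := bnum_pos h0.symm (by simpa using ⟨hB.free.nef, hB.big⟩)
      have h6 := hB.free.nef.pb K.val
      have h7 := hodge (x := pb α A) (Λ := [pb K.val B]) (by simpa using h6) h6 hQ.free.nef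
        (by rw [bnum_swap, h2]; exact mul_pos h5 ((big_iff_deg h1).1 (hQ.big.up K)))
        (by rw [h2, ← h4, mul_zero])
      rw [prj hF] at h7
      obtain ⟨β, hβ⟩ := exists_hom (le_range hd hα hB.big (le_antisymm
        (le_of_mul_le_mul_left (by simpa using h7) h.AA) (fd_nonneg h6.psef)))
      refine Or.inr ⟨β, h0, (deg_pos_iff β).2 (hF.trans h0.symm), ?_⟩
      have h8 := prj (α := α) hF (pb β B) (pb β B) M
      have h9 : bnum [pb β B, pb β B] = deg β * bnum [B, B] := bnum_pb β [B, B]
      rw [hβ, h9, hr] at h8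
      have h10 : bnum [up K M] ≤ v * r := by simpa using hv 0 1
      have h11 := (h2 M B B).symm.trans ((bnum_comm [M] [_, _]).trans h8)
      refine le_of_mul_le_mul_right (le_of_mul_le_mul_left ?_ h5) hr0
      calc bnum [B, B] * (deg β * r) = bnum [B, B] * bnum [up K M] := by rw [h11]; ring
        _ ≤ _ := by gcongr
    · refine Or.inl (h.of_fam (φ := (bnumL []).comp ((up K).comp (pb α))) h3 hv0 (hz _)
        ((hv 1 0).trans_eq (by ring)) ?_)
      change e ≤ bnum [up K (pb α H)]
      refine Int.le_of_dvd ?_ ?_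
      · obtain ⟨m, -, hm⟩ := h.H_big A
        have h5 := h3 _ hm.psef
        rw [map_sub, map_sub, map_nsmul, map_nsmul, bnum_sub, bnum_nsmul] at h5
        exact pos_of_mul_pos_left (b := (m : ℤ)) (by rw [mul_comm]; omega) (Int.natCast_nonneg m)
      · obtain ⟨a, b, h5⟩ := exists_uni2 h0
        have h6 := dvd_bnum hF he 2 E _ [pb K.val a, pb K.val b] (lnr_ofHom α) rfl
        rwa [(lin_mp _ _ H).bnum_eq, ← pb, h2, h5, one_mul] at h6

end Crest.Agent.X262.Fam
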