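import Crest.Agent.X262.Fam17.Pl
import Crest.Agent.X262.Geo.Val
import Crest.Agent.X262.Loc95.Crv

/-!
# Row 262, FAM (helper17), part 1: the residue field of a linear place, single primes

* `rg hp`, `toRg hp` : the range of a linear place, the surjective place onto it;
* `rk_eq`, `dim_rg_lt`, `dvs_iff_dim` : dimensions;
* `bnum_rs_zero`, `bnum_rs_prj` : products of restricted classes;
* `exists_single` : an effective class whose trace on a model is one prime;
* `exists_uni` : a list with intersection number one (algebraically closed ground field);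
* `dvd_bnum` : the degree of a class of a surface on the members of a family of curves.
-/

set_option autoImplicit false
set_option linter.unusedSectionVars false

noncomputable section

namespace Crest.Agent.X262.Fam

open Crest.Agent.X277 Crest.Agent.X277.BD Crest.Agent.X277.Pst
open Crest.Agent.X277.BD.Cyc (Lnr Rf plV lnr_plV surj_plV exists_lift)
open Crest.Agent.X277.Neg (nv)
open Crest.Agent.X262.Geo Crest.Agent.X262.Loc
open Crest.Agent.X262.Mod (IsMod Car)
open List (replicate)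
open WithZero

variable {k F E L : Type} [Field k] [Field F] [Algebra k F] [Field E] [Algebra k E] [Field L]
  [Algebra k L] {p : Pl k F k E}

theorem Cmp.lnr {q : Pl k E k L} {t : Pl k F k L} (h : Cmp p q t) (hp : Lnr p) (hq : Lnr q) :
    Lnr t := fun c => by rw [h.r _ (t.V.2 c), hp, hq]

theorem lnr_ofHom (α : F →ₐ[k] E) : Lnr (Pl.ofHom (α : F →+* E) (alg_ov α)) := fun c => by
  rw [Pl.r_ofHom]
  exact α.commutes c

/-- the restriction of a place to a subfield -/
def sub (α : F →ₐ[k] E) (q : Pl k E k L) : Pl k F k L := cmp (Pl.ofHom (α : F →+* E) (alg_ov α)) q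

section sub

variable {α : F →ₐ[k] E} {q : Pl k E k L} {x : F}

theorem mem_sub : x ∈ (sub α q).V.1 ↔ α x ∈ q.V.1 := by
  rw [sub, (cmp_cmp _ _).mem, Pl.r_ofHom]
  exact ⟨fun h => h.2, fun h => ⟨mem_ofHom _ _ x, h⟩⟩

theorem sub_V : (sub α q).V = cm (α : F →+* E) (alg_ov α) q.V :=
  Subtype.ext (ValuationSubring.ext _ _ fun _ => mem_sub)

theorem sub_r (x : F) : (sub α q).r x = q.r (α x) := by
  by_cases h : x ∈ (sub α q).V.1
  · rw [sub, (cmp_cmp _ _).r x h, Pl.r_ofHom]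
    rfl
  · rw [Pl.r, dif_neg h, Pl.r, dif_neg (mem_sub.not.1 h)]

theorem lnr_sub (hq : Lnr q) : Lnr (sub α q) := (cmp_cmp _ _).lnr (lnr_ofHom α) hq

theorem rs_pb (α : F →ₐ[k] E) (q : Pl k E k L) (a : BD k F) :
    Lin (q.rs (pb α a)) ((sub α q).rs a) := rs_mp (fun _ => mem_sub) (fun x _ => sub_r x) a

end sub

/-- the residue field of a linear place -/
def rg (hp : Lnr p) : IntermediateField k E :=
  Subfield.toIntermediateField
    { carrier := Set.range p.r
      mul_mem' := by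
        rintro _ _ ⟨x, rfl⟩ ⟨y, rfl⟩
        by_cases hx : x ∈ p.V.1
        · by_cases hy : y ∈ p.V.1
          · exact ⟨x * y, Pl.r_mul hx hy⟩
          · exact ⟨0, by rw [Pl.r_zero, Pl.r.eq_1 p y, dif_neg hy, mul_zero]⟩
        · exact ⟨0, by rw [Pl.r_zero, Pl.r.eq_1 p x, dif_neg hx, zero_mul]⟩
      one_mem' := ⟨1, p.r_one⟩
      add_mem' := by
        rintro _ _ ⟨x, rfl⟩ ⟨y, rfl⟩
        by_cases hx : x ∈ p.V.1
        · by_cases hy : y ∈ p.V.1
          · exact ⟨x + y, Pl.r_add hx hy⟩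
          · exact ⟨x, by rw [Pl.r.eq_1 p y, dif_neg hy, add_zero]⟩
        · exact ⟨y, by rw [Pl.r.eq_1 p x, dif_neg hx, zero_add]⟩
      zero_mem' := ⟨0, p.r_zero⟩
      neg_mem' := by
        rintro _ ⟨x, rfl⟩
        by_cases hx : x ∈ p.V.1
        · exact ⟨-x, Pl.r_neg hx⟩
        · exact ⟨0, by rw [Pl.r_zero, Pl.r.eq_1 p x, dif_neg hx, neg_zero]⟩
      inv_mem' := by
        rintro _ ⟨x, rfl⟩
        exact ⟨x⁻¹, Pl.r_inv x⟩ }
    fun c => ⟨_, hp c⟩

variable (hp : Lnr p)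

theorem mem_rg {y : E} : y ∈ rg hp ↔ ∃ x, p.r x = y := Iff.rfl

theorem mem_rg' {y : E} : y ∈ rg hp ↔ ∃ x ∈ p.V.1, p.r x = y := by
  refine ⟨?_, fun ⟨x, _, h⟩ => ⟨x, h⟩⟩
  rintro ⟨x, rfl⟩
  by_cases hx : x ∈ p.V.1
  · exact ⟨x, hx, rfl⟩
  · exact ⟨0, zero_mem _, by rw [Pl.r_zero, Pl.r, dif_neg hx]⟩

/-- the place onto its residue field -/
def toRg : Pl k F k (rg hp) where
  V := p.V
  φ := p.φ.codRestrict (rg hp) fun x => ⟨x, p.r_coe x⟩
  ker x := by
    rw [← p.ker x, Subtype.ext_iff]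
    rfl
  ov c := ⟨c, Subtype.ext ((p.r_eq _).symm.trans (hp c))⟩

theorem toRg_r (x : F) : ((toRg hp).r x : E) = p.r x := by
  by_cases h : x ∈ p.V.1
  · rw [(toRg hp).r_eq h, p.r_eq h]
    rfl
  · rw [Pl.r.eq_1 p, dif_neg h, Pl.r, dif_neg (show x ∉ (toRg hp).V.1 from h)]
    rfl

theorem lnr_toRg : Lnr (toRg hp) := fun c => Subtype.ext ((toRg_r hp _).trans (hp c))

theorem surj_toRg : Function.Surjective (toRg hp).φ := fun y => by
  obtain ⟨x, hx, h⟩ := (mem_rg' hp).1 y.2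
  exact ⟨⟨x, hx⟩, Subtype.ext ((p.r_eq hx).symm.trans h)⟩

theorem pb_toRg (a : BD k F) : Lin (pb (rg hp).val ((toRg hp).rs a)) (p.rs a) :=
  mp_rs (p := toRg hp) (t := p) (fun _ => Iff.rfl) (fun x _ => (toRg_r hp x).symm) a

theorem rs_congr {k' : Type} [Field k'] [Algebra k' E] {p t : Pl k F k' E}
    (h1 : ∀ x, x ∈ t.V.1 ↔ x ∈ p.V.1) (h2 : ∀ x ∈ t.V.1, t.r x = p.r x) (a : BD k F) :
    Lin (p.rs a) (t.rs a) := by
  have : Lin (mp (k := k') (k' := k') (RingHom.id E) (fun c => ⟨c, rfl⟩) (p.rs a)) (t.rs a) :=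
    mp_rs h1 h2 a
  rwa [mp_id fun _ => rfl] at this

/-- a trivial place is an embedding -/
def homOf (h : p.V.1 = ⊤) : F →ₐ[k] E where
  toFun := p.r
  map_one' := p.r_one
  map_mul' _ _ := Pl.r_mul (h ▸ trivial) (h ▸ trivial)
  map_zero' := p.r_zero
  map_add' _ _ := Pl.r_add (h ▸ trivial) (h ▸ trivial)
  commutes' := hp

theorem homOf_apply (h : p.V.1 = ⊤) (x : F) : homOf hp h x = p.r x := rfl

theorem pb_homOf (h : p.V.1 = ⊤) (a : BD k F) : Lin (pb (homOf hp h) a) (p.rs a) :=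
  (lin_mp _ _ a).symm.trans (rs_congr (fun x => ⟨fun _ => mem_ofHom _ _ x, fun _ => h ▸ trivial⟩)
    (fun x _ => by rw [Pl.r_ofHom]; rfl) a)

theorem deg_of_surj {α : F →ₐ[k] E} (h : Function.Surjective α) : deg α = 1 := by
  let := α.toRingHom.toAlgebra
  exact Algebra.finrank_eq_one_iff_bijective_algebraMap.2 ⟨α.injective, h⟩

theorem surj_homOf (h : p.V.1 = ⊤) : Function.Surjective (homOf (lnr_toRg hp) h) := fun y => by
  obtain ⟨x, hx⟩ := surj_toRg hp y
  exact ⟨x, ((toRg hp).r_coe x).trans hx⟩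

theorem forall₂_map {α β : Type*} {R : β → β → Prop} {f g : α → β} (h : ∀ a, R (f a) (g a))
    (l : List α) : List.Forall₂ R (l.map f) (l.map g) := by
  induction l with
  | nil => exact .nil
  | cons a l ih => exact .cons (h a) ih

variable [CharZero k] [Algebra.EssFiniteType k E]

theorem bnum_map_lin {α : Type*} {f g : α → BD k E} (h : ∀ a, Lin (f a) (g a)) (l : List α)
    (l' : List (BD k E)) : bnum (l.map f ++ l') = bnum (l.map g ++ l') :=
  bnum_congr (forall₂_map h l) l'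

theorem bnum_map_lin' {α : Type*} {f g : α → BD k E} (h : ∀ a, Lin (f a) (g a)) (l : List α) :
    bnum (l.map f) = bnum (l.map g) := by simpa using bnum_map_lin h l []

include hp in
theorem rk_eq (hs : Function.Surjective p.φ) : (rm p.V).eRk Set.univ = dim k E := by
  refine le_antisymm (le_of_nat fun n hn => ?_) ?_
  · obtain ⟨x, -, hx⟩ := le_rk_iff.1 hn
    have h1 := ((resInd_iff hp hx.1).1 hx).cardinalMk_le_trdeg
    rw [trdeg_eq_dim, Cardinal.mk_fin] at h1
    exact_mod_cast h1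
  · obtain ⟨t, ht⟩ := exists_isTranscendenceBasis k E
    have h1 := ht.cardinalMk_eq_trdeg
    rw [trdeg_eq_dim] at h1
    obtain ⟨e⟩ := Cardinal.mk_eq_nat_iff.1 h1
    choose y hy using fun i : Fin (dim k E) => hs (e.symm i)
    refine le_rk_iff.2 ⟨fun i => y i, fun _ => trivial, (resInd_iff hp fun i => (y i).2).2 ?_⟩
    simp only [Pl.r_coe, hy]
    exact ht.1.comp _ e.symm.injective

theorem rk_rg : (rm p.V).eRk Set.univ = dim k (rg hp) := rk_eq (lnr_toRg hp) (surj_toRg hp)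

/-- too many classes from a small residue field -/
theorem bnum_rs_zero {lam : List (BD k F)} (h : dim k (rg hp) < lam.length) (l : List (BD k E)) :
    bnum (lam.map p.rs ++ l) = 0 := by
  rw [← bnum_map_lin (pb_toRg hp), ← bnum_pb_zero (rg hp).val
    (l := lam.map (toRg hp).rs) (by simpa using h) l, List.map_map]
  rfl

theorem bnum_rs_prj {lam : List (BD k F)} (h : lam.length = dim k (rg hp)) (l : List (BD k E)) :
    bnum (lam.map p.rs ++ l) = bnum (lam.map (toRg hp).rs) * bnum (l.map (up (rg hp))) := by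
  rw [← bnum_map_lin (pb_toRg hp), ← bnum_prj_val _ _ (by simpa using h), bnum_comm, List.map_map]
  rfl

variable [Algebra.EssFiniteType k F]

theorem dim_rg_lt (h0 : p.V.1 ≠ ⊤) : dim k (rg hp) < dim k F := by
  have := rk_succ_le h0 Set.univ
  rw [rk_rg hp, dm_eq] at this
  exact_mod_cast this

theorem dim_rg_le : dim k (rg hp) ≤ dim k F := by
  have := rk_le p.V Set.univ
  rw [rk_rg hp, dm_eq] at this
  exact_mod_cast this

theorem dim_rg_top (h : p.V.1 = ⊤) : dim k (rg hp) = dim k F :=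
  (deg_pos_iff _).1 (by rw [deg_of_surj (surj_homOf hp h)]; exact one_pos)

theorem bnum_rg_top (h : p.V.1 = ⊤) (l : List (BD k F)) :
    bnum (l.map (toRg hp).rs) = bnum l := by
  rw [← bnum_map_lin' (pb_homOf (lnr_toRg hp) h), bnum_pb, deg_of_surj (surj_homOf hp h)]
  simp

theorem dvs_iff_dim : Dvs p.V ↔ p.V.1 ≠ ⊤ ∧ dim k F = dim k (rg hp) + 1 := by
  rw [dvs_iff, rk_rg hp, dm_eq]
  refine and_congr_right fun h0 => ⟨fun h => le_antisymm (by exact_mod_cast h) (dim_rg_lt hp h0),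
    fun h => by exact_mod_cast h.le⟩

theorem dg_eq_rg (hV : Dvs p.V) (l : List (BD k F)) : dg p.V l = bnum (l.map (toRg hp).rs) :=
  dg_eq_pl (p := toRg hp) hV (lnr_toRg hp) (surj_toRg hp) l

/-- the restriction of a divisorial valuation to a subfield is trivial or divisorial -/
theorem dvs_cm (α : F →ₐ[k] E) {V : RZ k E} (hV : Dvs V)
    (h0 : (cm (α : F →+* E) (alg_ov α) V).1 ≠ ⊤) : Dvs (cm (α : F →+* E) (alg_ov α) V) := by
  let := α.toRingHom.toAlgebra
  have : IsScalarTower k F E := IsScalarTower.of_algebraMap_eq fun c => (α.commutes c).symm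
  have h1 := rk_fibre (trdeg_dm k E) (trdeg_dm k F) V
  have h2 := (dvs_iff.1 hV).2
  refine dvs_iff.2 ⟨h0, ?_⟩
  change _ ≤ (rm (rsK F V)).eRk Set.univ + 1
  refine (ENat.add_le_add_iff_right (ENat.natCast_ne_top (Gj.dm k E))).1 ?_
  calc (Gj.dm k F : ℕ∞) + Gj.dm k E ≤ Gj.dm k F + ((rm V).eRk Set.univ + 1) := by gcongr
    _ = (rm V).eRk Set.univ + Gj.dm k F + 1 := by ring
    _ ≤ (rm (rsK F V)).eRk Set.univ + Gj.dm k E + 1 := by gcongr
    _ = _ := by ring

section single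

variable {V W : RZ k F} {H : BD k F}

theorem eq_of_dvs_le (hV : Dvs V) (h0 : W.1 ≠ ⊤) (h : V.1 ≤ W.1) : V = W := by
  refine Subtype.ext (le_antisymm h fun x hx => by_contra fun hxV => h0 ?_)
  have h1 : 1 < nv V x := not_le.1 ((nv_le_one hV).not.2 hxV)
  have hx0 : nv V x ≠ 0 := (zero_lt_one.trans h1).ne'
  refine top_unique fun y _ => ?_
  by_cases hy0 : y = 0
  · exact hy0 ▸ zero_mem _
  obtain ⟨n, hn⟩ : ∃ n : ℕ, nv V y ≤ nv V x ^ n := by
    have h2 : nv V y ≠ 0 := by simpa using hy0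
    refine ⟨(log (nv V y)).toNat, ?_⟩
    rw [← exp_log h2, ← exp_log hx0, ← exp_nsmul, exp_le_exp, log_exp, nsmul_eq_mul]
    have h3 : 0 < log (nv V x) := by rwa [← exp_lt_exp, exp_log hx0]
    nlinarith [Int.self_le_toNat (log (nv V y)), Int.natCast_nonneg (log (nv V y)).toNat]
  have hx1 : x ^ n ≠ 0 := pow_ne_zero _ (by simpa using hx0)
  have h3 : y / x ^ n ∈ V.1 := (nv_le_one hV).1 (by
    rw [map_div₀, map_pow]
    exact div_le_one_of_le₀ hn zero_le)
  simpa [hx1] using mul_mem (h h3) (pow_mem hx n)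

theorem exists_sep (hV : Dvs V) (hW : Dvs W) (h : V ≠ W) :
    ∃ a : BD k F, 0 ≤ a ∧ 1 ≤ od V a ∧ od W a = 0 := by
  obtain ⟨x, h1, h2⟩ := SetLike.not_le_iff_exists.1 fun h' => h (eq_of_dvs_le hW hV.ne_top h').symm
  have hx : x ≠ 0 := fun h => h2 (h ▸ zero_mem _)
  have h3 : 1 < nv V x := not_le.1 ((nv_le_one hV).not.2 h2)
  have h4 : nv W x ≤ 1 := (nv_le_one hW).2 h1
  refine ⟨pr k x ⊔ 0, le_sup_right, ?_, ?_⟩
  · rw [od_sup, od_pr hx]
    refine le_max_of_le_left (show 0 < log (nv V x) from ?_)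
    rwa [← exp_lt_exp, exp_log (zero_lt_one.trans h3).ne']
  · rw [od_sup, od_pr hx, map_zero, max_eq_right]
    rwa [← exp_le_exp, exp_log (by simpa using hx)]

/-- an effective class whose trace on the model is one prime -/
theorem exists_single (hH : IsMod H) (hV : Dvs V) : ∃ a : BD k F, 0 ≤ a ∧ od V a = 1 ∧
    ∀ W, Prm H W → W ≠ V → od W a = 0 := by
  obtain ⟨t, ht⟩ := nv_unif hV
  have ht0 : t ≠ 0 := fun h => exp_ne_zero (by rw [← ht, h, map_zero])
  have key : ∀ T : Finset (RZ k F), (∀ W ∈ T, Dvs W ∧ W ≠ V) → ∃ a : BD k F, 0 ≤ a ∧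
      a ≤ pr k t⁻¹ ⊔ 0 ∧ od V a = 1 ∧ ∀ W ∈ T, od W a = 0 := by
    classical
    intro T
    induction T using Finset.induction_on with
    | empty =>
      refine fun _ => ⟨_, le_sup_right, le_rfl, ?_, by simp⟩
      rw [od_sup, od_pr (inv_ne_zero ht0), map_inv₀, ht, ← exp_neg, log_exp, map_zero]
      rfl
    | insert W T _ ih =>
      intro h
      obtain ⟨a, h1, h2, h3, h4⟩ := ih fun U hU => h U (Finset.mem_insert_of_mem hU)
      obtain ⟨h5, h6⟩ := h W (Finset.mem_insert_self _ _)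
      obtain ⟨b, h7, h8, h9⟩ := exists_sep hV h5 h6.symm
      refine ⟨a ⊓ b, le_inf h1 h7, inf_le_left.trans h2, by rw [od_inf, h3, min_eq_left h8],
        fun U hU => ?_⟩
      rcases Finset.mem_insert.1 hU with rfl | hU
      · rw [od_inf, h9, min_eq_right (od_nonneg h1)]
      · rw [od_inf, h4 U hU, min_eq_left (od_nonneg h7)]
  have hf : {W | (Prm H W ∧ od W (pr k t⁻¹ ⊔ 0) ≠ 0) ∧ W ≠ V}.Finite :=
    (fin_od hH (pr k t⁻¹ ⊔ 0)).subset fun _ h => h.1
  obtain ⟨a, h1, h2, h3, h4⟩ := key hf.toFinset fun W hW =>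
    ⟨(hf.mem_toFinset.1 hW).1.1.dvs, (hf.mem_toFinset.1 hW).2⟩
  refine ⟨a, h1, h3, fun W h5 h6 => ?_⟩
  by_cases h7 : od W (pr k t⁻¹ ⊔ 0) = 0
  · exact le_antisymm (h7 ▸ od_mono h2) (od_nonneg h1)
  · exact h4 W (hf.mem_toFinset.2 ⟨⟨h5, h7⟩, h6⟩)

theorem bnum_single {a : BD k F} {l : List (BD k F)} (hV : Dvs V)
    (h : ∀ W, Dvs W → W ≠ V → od W a ≠ 0 → dg W l = 0) : bnum (a :: l) = od V a * dg V l := by
  obtain ⟨T, h1, h2, h3, h4⟩ := exists_cyc a l {V} (by simpa using hV)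
  rw [h4, Finset.sum_eq_single_of_mem V (h1 (by simp)) fun W hW hne => ?_]
  rw [h W (h2 W hW) hne (h3 W hW (by simpa using hne)), mul_zero]

/-- a list which sees only one prime -/
theorem exists_pair (hV : Dvs V) {d : ℕ} (hd : dim k F = d + 1) (L : List (BD k F)) :
    ∃ a H : BD k F, 0 ≤ a ∧ IsMod H ∧ od V a = 1 ∧ Prm H V ∧ (∀ b ∈ L, Car H b) ∧
      (∀ W, Prm H W → W ≠ V → od W a = 0) ∧ bnum (a :: replicate d H) = dg V (replicate d H) := by
  obtain ⟨H, h1, -, -, h2, h3⟩ := exists_model Free.zero {V} (by simpa using hV) L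
  obtain ⟨a, h4, h5, h6⟩ := exists_single h1 hV
  refine ⟨a, H, h4, h1, h5, h2 V (by simp), h3, h6, ?_⟩
  rw [bnum_single hV fun W h7 h8 h9 => dg_eq_zero h1.free h7 (fun h => h9 (h6 W h h8)) hd, h5,
    one_mul]

theorem exists_uni1 [IsAlgClosed k] (hd : dim k F = 1) : ∃ a : BD k F, Nef a ∧ bnum [a] = 1 := by
  obtain ⟨P, -⟩ := exists_pt hd ∅
  have h1 : R013.RR8_948.degP P = 1 := by
    have h2 := degP_pos' hd P
    rw [degP_eq] at h2 ⊢
    have := Module.finite_of_finrank_pos (by exact_mod_cast h2 : 0 < Module.finrank k (Rf (rzP P)))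
    exact_mod_cast Algebra.finrank_eq_one_iff_bijective_algebraMap.2
      IsAlgClosed.algebraMap_bijective_of_isIntegral
  have h2 : bnum [dvB hd (Finsupp.single P 1)] = 1 := by rw [bnum_dvB_single, h1]; rfl
  exact ⟨_, (nef_iff_deg hd).2 (by rw [h2]; exact zero_le_one), h2⟩

theorem exists_uni2 [IsAlgClosed k] (hd : dim k F = 2) : ∃ a b : BD k F, bnum [a, b] = 1 := by
  obtain ⟨H0, hH0⟩ := Mod.exists_isMod (k := k) (F := F)
  obtain ⟨V, hV⟩ : ∃ V : RZ k F, Dvs V := by
    by_contra h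
    refine (bnum_pos (l := [H0, H0]) hd.symm ?_).ne' (bnum_eq_zero fun V hV => (h ⟨V, hV⟩).elim)
    simpa using ⟨hH0.free.nef, hH0.big⟩
  have := essFT_Rf hV
  obtain ⟨c, -, hc⟩ := exists_uni1 (F := Rf V) (k := k) (by have := dim_Rf' hV; omega)
  obtain ⟨c1, c2, h1, h2, rfl⟩ := exists_sub c
  obtain ⟨b1, -, h3, rfl⟩ := exists_lift (surj_plV V) h1
  obtain ⟨b2, -, h4, rfl⟩ := exists_lift (surj_plV V) h2
  obtain ⟨a, H, -, h5, h6, -, h7, h8, -⟩ := exists_pair hV hd [b1 - b2]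
  refine ⟨a, b1 - b2, ?_⟩
  rw [bnum_single hV fun W h9 h10 h11 => ?_, h6, one_mul, dg_eq, ← hc]
  · exact ((lin_rs_sub _ _ _).trans (by
      simpa [sub_eq_add_neg] using (Pl.lin_rs_res h3).add (Pl.lin_rs_res h4).neg)).bnum_eq _
  · obtain ⟨m, h12, h13⟩ := h7 (b1 - b2) (by simp)
    have h14 : dg W [H] = 0 := dg_eq_zero h5.free h9 (fun h => h11 (h8 W h h10)) hd
    have h15 := dg_nonneg (V := W) (l := [m • H + (b1 - b2)]) (by simpa using h12.nef)
    have h16 := dg_nonneg (V := W) (l := [m • H - (b1 - b2)]) (by simpa using h13.nef)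
    rw [dg_add, dg_nsmul, h14] at h15
    rw [dg_sub, dg_nsmul, h14] at h16
    omega

end single

/-- **divisibility** of the degree of a class of a surface on the members of a family of curves -/
theorem dvd_bnum (hd : dim k F = 2) {H : BD k F} {e : ℤ} (he : ∀ V, Dvs V → e ∣ dg V [H]) :
    ∀ (n : ℕ) (E : Type) [Field E] [Algebra k E] [Algebra.EssFiniteType k E] (p : Pl k F k E)
      (l : List (BD k E)), Lnr p → l.length = n → e ∣ bnum (p.rs H :: l)
  | 0, E, _, _, _, p, l, hp, hl => by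
    obtain rfl := List.length_eq_zero_iff.1 hl
    by_cases h1 : dim k E = 1
    · by_cases h2 : dim k (rg hp) = 1
      · have hV : Dvs p.V := (dvs_iff_dim hp).2 ⟨fun h => by have := dim_rg_top hp h; omega,
          by omega⟩
        have h3 := bnum_rs_prj hp (lam := [H]) h2.symm []
        rw [← dg_eq_rg hp hV] at h3
        exact (show bnum [p.rs H] = _ from h3) ▸ (he _ hV).mul_right _
      · have h3 := dim_le (rg hp).val
        exact (show bnum [p.rs H] = _ from bnum_rs_zero hp (lam := [H]) (by simp; omega) []) ▸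
          dvd_zero e
    · rw [bnum_of_ne (by simpa using Ne.symm h1)]
      exact dvd_zero e
  | n + 1, E, _, _, _, p, l, hp, hl => by
    obtain ⟨a, l, rfl⟩ := List.exists_cons_of_length_eq_add_one hl
    obtain ⟨T, -, h2, -, h4⟩ := exists_cyc a (p.rs H :: l) ∅ (by simp)
    rw [bnum_swap, h4]
    refine Finset.dvd_sum fun V hV => Dvd.dvd.mul_left ?_ _
    have := essFT_Rf (h2 V hV)
    rw [dg_eq, List.map_cons, ((cmp_cmp p (plV V)).rs H).bnum_eq]
    exact dvd_bnum hd he n _ _ _ ((cmp_cmp _ _).lnr hp (lnr_plV V)) (by simpa using hl)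

section spec

variable {M : Type} [Field M] [Algebra k M] [Algebra M F] [IsScalarTower k M F]
  [Algebra.EssFiniteType k M] [CharZero M] [Algebra.EssFiniteType M F]

variable (M) in
/-- the trace of the place on the subfield -/
abbrev tr (p : Pl k F k E) : Pl k M k E := sub (IsScalarTower.toAlgHom k M F) p

variable (M) in
/-- the residue field of the trace -/
abbrev k0 : IntermediateField k E := rg (p := tr M p) (lnr_sub hp)

theorem dg_pb_app (hs : Function.Surjective p.φ) (hV : Dvs p.V) {lam : List (BD k M)}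
    (h : lam.length = dim k (k0 hp M)) (l : List (BD k F)) :
    dg p.V (lam.map (pbK k F) ++ l) = bnum (lam.map (toRg (p := tr M p) (lnr_sub hp)).rs) *
      bnum ((l.map p.rs).map (up (k0 hp M))) := by
  rw [dg_eq_pl hV hp hs, List.map_append, List.map_map, ← bnum_rs_prj _ h]
  exact bnum_map_lin (rs_pb _ p) _ _

/-- **specialisation**, vertical case -/
theorem spec_vert (hs : Function.Surjective p.φ) (hV : Dvs p.V) (h0 : (tr M p).V.1 ≠ ⊤) :
    dim k M = dim k (k0 hp M) + 1 ∧ ∀ l : List (BD k F), (∀ a ∈ l, Nef a) →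
      bnum ((l.map p.rs).map (up (k0 hp M))) ≤ bnum (l.map (up M)) := by
  have hw : Dvs (tr M p).V := by
    rw [sub_V] at h0 ⊢
    exact dvs_cm _ hV h0
  have hd := ((dvs_iff_dim _).1 hw : _ ∧ _ = dim k (k0 hp M) + 1).2
  refine ⟨hd, fun l hl => ?_⟩
  obtain ⟨a, H, h1, h2, h3, h4, -, -, h5⟩ := exists_pair hw hd []
  have h6 := dg_pos h2 h4 hd
  have h7 := bnum_prj' l (lam := a :: replicate (dim k (k0 hp M)) H) (by simp [hd])
  have h8 := od_mul_le (a := pbK k F a) (l := (replicate (dim k (k0 hp M)) H).map (pbK k F) ++ l)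
    (mp_nonneg h1) (all_app (by
      rw [List.map_replicate]
      exact all_rp (h2.free.nef.pb (IsScalarTower.toAlgHom k M F)) _) hl) hV
  have h9 : 1 ≤ od p.V (pbK k F a) := by
    refine lt_of_le_of_ne (od_nonneg (mp_nonneg h1)) (Ne.symm fun h => ?_)
    have h9 := val_mp_eq_one.1 ((od_eq_zero hV).1 h)
    rw [← sub_V, ← od_eq_zero hw, h3] at h9
    exact one_ne_zero h9
  have h10 : 0 ≤ bnum ((l.map p.rs).map (up (k0 hp M))) := bnum_nonneg (by
    simpa using fun a ha => ((hl a ha).rs p).up _)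
  rw [dg_pb_app hp hs hV (by simp), ← dg_eq_rg _ hw] at h8
  rw [h5] at h7
  refine le_of_mul_le_mul_left (le_trans ?_ (h8.trans_eq h7)) h6
  exact le_mul_of_one_le_left (mul_nonneg h6.le h10) h9

/-- **specialisation**, horizontal case -/
theorem spec_hor (hs : Function.Surjective p.φ) (hV : Dvs p.V) (h0 : (tr M p).V.1 = ⊤)
    {a : BD k F} (ha : 0 ≤ a) {l : List (BD k F)} (hl : ∀ a ∈ l, Nef a) :
    od p.V a * bnum ((l.map p.rs).map (up (k0 hp M))) ≤ bnum ((a :: l).map (up M)) := by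
  obtain ⟨H, hH⟩ := Mod.exists_isMod (k := k) (F := M)
  have h6 : 0 < bnum (replicate (dim k M) H) :=
    bnum_pos (by simp) (all_rp ⟨hH.free.nef, hH.big⟩ _)
  have h7 := bnum_prj' (a :: l) (lam := replicate (dim k M) H) (by simp)
  have h8 := od_mul_le (l := (replicate (dim k M) H).map (pbK k F) ++ l) ha
    (all_app (by
      rw [List.map_replicate]
      exact all_rp (hH.free.nef.pb (IsScalarTower.toAlgHom k M F)) _) hl) hV
  rw [dg_pb_app hp hs hV (by simp [dim_rg_top _ h0]), bnum_rg_top _ h0, ← bnum_mid] at h8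
  refine le_of_mul_le_mul_left (le_trans (le_of_eq ?_) (h8.trans_eq h7)) h6
  ring

end spec

end Crest.Agent.X262.Fam
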